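import Mathlib
import Vale.Agent.P193.Defs

/-!
P193 in full: shared definitions and interfaces.

A subshift of finite type over a group `Γ` is given by the allowed patterns on the translates of
one finite window. The group of the construction is generated by the three-cycles of disjoint
pieces of `X × Cantor`, a piece being moved by a translation and a replacement of an initial word.
-/

namespace Vale.Agent.P193.BH

/-- Presentation data of a subshift of finite type over `Γ`. -/
structure SFT (Γ : Type) [Group Γ] where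
  A : Type
  [fintypeA : Fintype A]
  [decEqA : DecidableEq A]
  [topA : TopologicalSpace A]
  [discA : DiscreteTopology A]
  win : Finset Γ
  allowed : (win → A) → Prop

attribute [instance] SFT.fintypeA SFT.decEqA SFT.topA SFT.discA

namespace SFT

variable {Γ : Type} [Group Γ] (S : SFT Γ)

/-- The window of `x` at `γ`. -/
def window (x : Γ → S.A) (γ : Γ) : S.win → S.A := fun w => x (γ * w)

/-- The configurations all of whose windows are allowed. -/
def carrier : Set (Γ → S.A) := {x | ∀ γ, S.allowed (S.window x γ)}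

/-- The points of the subshift. -/
abbrev X : Type := {x : Γ → S.A // x ∈ S.carrier}

lemma translate_mem (γ : Γ) {x : Γ → S.A} (hx : x ∈ S.carrier) :
    (fun c => x (γ⁻¹ * c)) ∈ S.carrier := by
  intro δ
  have h := hx (γ⁻¹ * δ)
  have e : S.window x (γ⁻¹ * δ) = S.window (fun c => x (γ⁻¹ * c)) δ := by
    funext w
    simp [window, mul_assoc]
  rwa [e] at h

/-- The translation by `γ`. -/
def act (γ : Γ) : Equiv.Perm S.X where
  toFun x := ⟨fun c => x.1 (γ⁻¹ * c), S.translate_mem γ x.2⟩
  invFun x := ⟨fun c => x.1 (γ⁻¹⁻¹ * c), S.translate_mem γ⁻¹ x.2⟩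
  left_inv x := Subtype.ext <| funext fun c => by simp
  right_inv x := Subtype.ext <| funext fun c => by simp

lemma act_apply (γ : Γ) (x : S.X) (c : Γ) : (S.act γ x).1 c = x.1 (γ⁻¹ * c) := rfl

lemma act_act (γ δ : Γ) (x : S.X) : S.act γ (S.act δ x) = S.act (γ * δ) x :=
  Subtype.ext <| funext fun c => by simp [act_apply, mul_assoc]

lemma act_one (x : S.X) : S.act 1 x = x :=
  Subtype.ext <| funext fun c => by simp [act_apply]

lemma continuous_act (γ : Γ) : Continuous (S.act γ) := by
  show Continuous fun x : S.X => (⟨fun c => x.1 (γ⁻¹ * c), S.translate_mem γ x.2⟩ : S.X)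
  have h : Continuous fun x : S.X => fun c => x.1 (γ⁻¹ * c) :=
    continuous_pi fun c => (continuous_apply (γ⁻¹ * c)).comp continuous_subtype_val
  exact h.subtype_mk _

/-- `x` and `y` agree on `U`. -/
def AgreeOn (U : Finset Γ) (x y : S.X) : Prop := ∀ c ∈ U, x.1 c = y.1 c

/-- Nonempty, every finite pattern occurs in every orbit, and the action is free. -/
structure MinimalFree : Prop where
  nonempty : Nonempty S.X
  minimal : ∀ x y : S.X, ∀ U : Finset Γ, ∃ γ : Γ, S.AgreeOn U (S.act γ x) y
  free : ∀ (x : S.X) (γ : Γ), S.act γ x = x → γ = 1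

/-! ### Rigidity -/

/-- A pattern all of whose complete windows inside `U` are allowed. -/
def Admissible (U : Finset Γ) (p : Γ → S.A) : Prop :=
  ∀ γ, (∀ w ∈ S.win, γ * w ∈ U) → S.allowed (S.window p γ)

/-- A Boolean observable supported on finitely many cells. -/
structure Obs where
  supp : Finset Γ
  val : (Γ → S.A) → Bool
  dep : ∀ x y : Γ → S.A, (∀ c ∈ supp, x c = y c) → val x = val y

/-- The observable that the cell `c` carries the letter `a`. -/
def cellObs (c : Γ) (a : S.A) : S.Obs where
  supp := {c}
  val x := decide (x c = a)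
  dep x y h := by rw [h c (Finset.mem_singleton_self c)]

/-- `o` looks at each of its cells only through the classes of `g`. -/
def Obs.Thru (g : Γ → S.A → S.A) (o : S.Obs) : Prop :=
  ∀ x y : Γ → S.A, (∀ c ∈ o.supp, g c (x c) = g c (y c)) → o.val x = o.val y

/-- The observable that the cell `c` has the class `l` under `g`. -/
def classObs (g : Γ → S.A → S.A) (c : Γ) (l : S.A) : S.Obs where
  supp := {c}
  val x := decide (g c (x c) = l)
  dep x y h := by rw [h c (Finset.mem_singleton_self c)]

/-- Every observable factors through the identity classes. -/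
lemma Obs.thru_id (o : S.Obs) : o.Thru S (fun _ l => l) := o.dep

lemma classObs_id (c : Γ) (l : S.A) : S.classObs (fun _ a => a) c l = S.cellObs c l := rfl

/-- Every window agrees on its part inside `U`, up to `g`, with an allowed window. -/
def AdmissibleClass (g : Γ → S.A → S.A) (U : Finset Γ) (p : Γ → S.A) : Prop :=
  ∀ γ, ∃ q : Γ → S.A, S.allowed (S.window q γ) ∧
    ∀ w ∈ S.win, γ * w ∈ U → g (γ * w) (q (γ * w)) = g (γ * w) (p (γ * w))

lemma AdmissibleClass.admissible {U : Finset Γ} {p : Γ → S.A}
    (h : S.AdmissibleClass (fun _ l => l) U p) : S.Admissible U p := by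
  intro γ hγ
  obtain ⟨q, hq, e⟩ := h γ
  rwa [show S.window p γ = S.window q γ from funext fun w => (e w w.2 (hγ w w.2)).symm]

/-- The two kinds of derivable facts about observables. -/
inductive Kind where
  | com
  | same

/-- `Der com o o'`: the local rules force `o` and `o'` to commute. `Der same o o'`: they force
`o` and `o'` to be equal. A context is a finite set `U` of cells with a coarsening `g` of the
letters of each cell such that `Der com` holds of the classes of any two cells of `U`.
* `window`: observables in one translate of the window, or on one cell, commute.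
* `agree`: observables in a context that agree on its admissible patterns are equal.
* `congr`: the same function of equal observables, in two contexts, gives equal observables.
* `derived`: a function of observables that commute with `o'` commutes with `o'`.
* `exclusive`: equal observables `d`, `d'` in two contexts separating `o` from `o'`. -/
inductive Der : Kind → S.Obs → S.Obs → Prop
  | window (o o' : S.Obs) (γ : Γ) :
      (∀ d, d ∈ o.supp ∨ d ∈ o'.supp → ∃ w ∈ S.win, d = γ * w) → Der .com o o'
  | cell (o o' : S.Obs) (γ : Γ) : o.supp ⊆ {γ} → o'.supp ⊆ {γ} → Der .com o o'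
  | symm (t : Kind) (o o' : S.Obs) : Der t o o' → Der t o' o
  | agree (o o' : S.Obs) (g : Γ → S.A → S.A) (U : Finset Γ) :
      o.supp ⊆ U → o'.supp ⊆ U → o.Thru S g → o'.Thru S g →
      (∀ a ∈ U, ∀ b ∈ U, ∀ l l' : S.A, Der .com (S.classObs g a l) (S.classObs g b l')) →
      (∀ p : Γ → S.A, S.AdmissibleClass g U p → o.val p = o'.val p) → Der .same o o'
  | trans (o o' o'' : S.Obs) : Der .same o o' → Der .same o' o'' → Der .same o o''
  | congr (o o' : S.Obs) (n : ℕ) (ms ms' : Fin n → S.Obs) (f : (Fin n → Bool) → Bool)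
      (g h : Γ → S.A → S.A) (U W : Finset Γ) :
      o.supp ⊆ U → (∀ i, (ms i).supp ⊆ U) → o'.supp ⊆ W → (∀ i, (ms' i).supp ⊆ W) →
      o.Thru S g → (∀ i, (ms i).Thru S g) → o'.Thru S h → (∀ i, (ms' i).Thru S h) →
      (∀ a ∈ U, ∀ b ∈ U, ∀ l l' : S.A, Der .com (S.classObs g a l) (S.classObs g b l')) →
      (∀ a ∈ W, ∀ b ∈ W, ∀ l l' : S.A, Der .com (S.classObs h a l) (S.classObs h b l')) →
      (∀ p : Γ → S.A, S.AdmissibleClass g U p → o.val p = f fun i => (ms i).val p) →
      (∀ p : Γ → S.A, S.AdmissibleClass h W p → o'.val p = f fun i => (ms' i).val p) →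
      (∀ i, Der .same (ms i) (ms' i)) → Der .same o o'
  | subst (o o' o'' : S.Obs) : Der .same o o' → Der .com o' o'' → Der .com o o''
  | derived (o o' : S.Obs) (n : ℕ) (ms : Fin n → S.Obs) (f : (Fin n → Bool) → Bool)
      (g h : Γ → S.A → S.A) (U : Finset Γ) :
      o.supp ⊆ U → (∀ i, (ms i).supp ⊆ U) →
      o.Thru S g → (∀ i, (ms i).Thru S g) → o'.Thru S h →
      (∀ a ∈ U, ∀ b ∈ U, ∀ l l' : S.A, Der .com (S.classObs g a l) (S.classObs g b l')) →
      (∀ a ∈ o'.supp, ∀ b ∈ o'.supp, ∀ l l' : S.A,
        Der .com (S.classObs h a l) (S.classObs h b l')) →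
      (∀ p : Γ → S.A, S.AdmissibleClass g U p → o.val p = f fun i => (ms i).val p) →
      (∀ i, Der .com (ms i) o') → Der .com o o'
  | exclusive (o o' d d' : S.Obs) (g h : Γ → S.A → S.A) (U W : Finset Γ) :
      o.supp ⊆ U → d.supp ⊆ U → o'.supp ⊆ W → d'.supp ⊆ W →
      o.Thru S g → d.Thru S g → o'.Thru S h → d'.Thru S h →
      (∀ a ∈ U, ∀ b ∈ U, ∀ l l' : S.A, Der .com (S.classObs g a l) (S.classObs g b l')) →
      (∀ a ∈ W, ∀ b ∈ W, ∀ l l' : S.A, Der .com (S.classObs h a l) (S.classObs h b l')) →
      Der .same d d' →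
      (∀ p : Γ → S.A, S.AdmissibleClass g U p → o.val p = true → d.val p = true) →
      (∀ p : Γ → S.A, S.AdmissibleClass h W p → o'.val p = true → d'.val p = false) →
      Der .com o o'

/-- All cells commute. -/
def Rigid : Prop := ∀ (a b : Γ) (l l' : S.A), S.Der .com (S.cellObs a l) (S.cellObs b l')

/-! ### The group -/

/-- The space acted on. -/
abbrev Pt : Type := S.X × (ℕ → Bool)

/-- The sequence `w` preceded by the word `a`. -/
def cat (a : List Bool) (w : ℕ → Bool) : ℕ → Bool :=
  fun i => if h : i < a.length then a[i] else w (i - a.length)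

/-- The translation by `γ` on the points. -/
def trans (γ : Γ) : Equiv.Perm S.Pt := (S.act γ).prodCongr (Equiv.refl _)

/-- The piece over `U` moved by `γ`, with initial word `a`. -/
def piece (U : Set S.X) (γ : Γ) (a : List Bool) : Set S.Pt :=
  {p | ∃ x ∈ U, ∃ w, p = (S.act γ x, cat a w)}

/-- Three pairwise disjoint pieces over a clopen set. -/
structure Cyc where
  base : Set S.X
  clopen : IsClopen base
  shift : Fin 3 → Γ
  pre : Fin 3 → List Bool
  disjoint : ∀ i j, i ≠ j → Disjoint (S.piece base (shift i) (pre i)) (S.piece base (shift j) (pre j))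

/-- `g` permutes the pieces of `c` cyclically and fixes everything else. -/
def Cyc.IsPerm (c : S.Cyc) (g : Equiv.Perm S.Pt) : Prop :=
  (∀ i, ∀ x ∈ c.base, ∀ w,
    g (S.act (c.shift i) x, cat (c.pre i) w) = (S.act (c.shift (i + 1)) x, cat (c.pre (i + 1)) w)) ∧
  ∀ p, (∀ i, p ∉ S.piece c.base (c.shift i) (c.pre i)) → g p = p

/-- The group generated by the three-cycles of pieces. -/
def fullGroup : Subgroup (Equiv.Perm S.Pt) := Subgroup.closure {g | ∃ c : S.Cyc, c.IsPerm S g}

end SFT

/-! ### The interfaces -/

/-- W1: Clapham's theorem. -/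
def ClaphamStatement : Prop :=
  ∀ (G : Type) [Group G], HasDecidableWP G →
    ∃ (K : Type) (_ : Group K), Group.IsFinitelyPresented K ∧ HasDecidableWP K ∧ Infinite K ∧
      ∃ f : G →* K, Function.Injective f

/-- W2, W3, W4: the simulation, over a finitely presented overgroup (a product with a lattice). -/
def SimulationStatement : Prop :=
  ∀ (K : Type) [Group K] [Infinite K], Group.IsFinitelyPresented K → HasDecidableWP K →
    ∃ (Γ : Type) (_ : Group Γ), Group.IsFinitelyPresented Γ ∧
      (∃ ι : K →* Γ, Function.Injective ι) ∧ ∃ S : SFT Γ, S.MinimalFree ∧ S.Rigid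

/-- W5, W6: rigidity gives finite presentability. -/
def PresentationStatement : Prop :=
  ∀ (Γ : Type) [Group Γ], Group.IsFinitelyPresented Γ → ∀ S : SFT Γ, S.MinimalFree → S.Rigid →
    Group.IsFinitelyPresented S.fullGroup

/-- W6: simplicity. -/
def SimpleStatement : Prop :=
  ∀ (Γ : Type) [Group Γ], ∀ S : SFT Γ, S.MinimalFree → IsSimpleGroup S.fullGroup

/-- W6: the translations are products of three-cycles. -/
def TranslationStatement : Prop :=
  ∀ (Γ : Type) [Group Γ] (S : SFT Γ) (γ : Γ), S.trans γ ∈ S.fullGroup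

/-- The modules give the Boone-Higman conjecture. -/
theorem answer_of_modules (h1 : ClaphamStatement) (h2 : SimulationStatement)
    (h3 : PresentationStatement) (h4 : SimpleStatement) (h5 : TranslationStatement)
    (G : Type) [Group G] (hG : HasDecidableWP G) :
    ∃ (H : Type) (_ : Group H), Group.IsFinitelyPresented H ∧ IsSimpleGroup H ∧
      ∃ f : G →* H, Function.Injective f := by
  obtain ⟨K, _, hfp, hwp, hinf, f, hf⟩ := h1 G hG
  obtain ⟨Γ, _, hΓ, ⟨ι, hι⟩, S, hmf, hrig⟩ := h2 K hfp hwp
  let φ : Γ →* S.fullGroup :=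
    { toFun := fun γ => ⟨S.trans γ, h5 Γ S γ⟩
      map_one' := Subtype.ext <| Equiv.ext fun p => Prod.ext (S.act_one p.1) rfl
      map_mul' := fun a b => Subtype.ext <| Equiv.ext fun p =>
        Prod.ext (S.act_act a b p.1).symm rfl }
  have hφ : Function.Injective φ := by
    refine (injective_iff_map_eq_one φ).2 fun γ hγ => ?_
    obtain ⟨x⟩ := hmf.nonempty
    have h : S.trans γ (x, fun _ => false) = (x, fun _ => false) :=
      DFunLike.congr_fun (congrArg Subtype.val hγ) _
    exact hmf.free x _ (congrArg Prod.fst h)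
  exact ⟨S.fullGroup, inferInstance, h3 Γ hΓ S hmf hrig, h4 Γ S hmf, φ.comp (ι.comp f),
    hφ.comp (hι.comp hf)⟩

end Vale.Agent.P193.BH
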