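import Mathlib
import Vale.Agent.P193.BH.Defs

/-!
P193: a calculus for the derived relations between observables of a subshift, with contexts made
of classes of letters.
-/

namespace Vale.Agent.P193.BH.SFT

open Finset
open scoped Classical

noncomputable section

variable {Γ : Type} [Group Γ] {S : SFT Γ}

/-- The local rules force the two observables to commute. -/
abbrev Com (o o' : S.Obs) : Prop := S.Der .com o o'

/-- The local rules force the two observables to be equal. -/
abbrev Same (o o' : S.Obs) : Prop := S.Der .same o o'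

/-- A set of cells whose classes commute. -/
def Ctx (g : Γ → S.A → S.A) (U : Finset Γ) : Prop :=
  ∀ a ∈ U, ∀ b ∈ U, ∀ l l' : S.A, Com (S.classObs g a l) (S.classObs g b l')

/-- On `U` the classes of `g` are finer than those of `g'`. -/
def Finer (g g' : Γ → S.A → S.A) (U : Finset Γ) : Prop :=
  ∀ c ∈ U, ∀ l l' : S.A, g c l = g c l' → g' c l = g' c l'

lemma Finer.mono {g g' : Γ → S.A → S.A} {U W : Finset Γ} (h : Finer g g' W) (hU : U ⊆ W) :
    Finer g g' U :=
  fun c hc => h c (hU hc)

lemma finer_id (g : Γ → S.A → S.A) (U : Finset Γ) : Finer (fun _ l => l) g U :=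
  fun c _ _ _ h => congrArg (g c) h

@[simp] lemma classObs_supp (g : Γ → S.A → S.A) (c : Γ) (l : S.A) :
    (S.classObs g c l).supp = {c} := rfl

@[simp] lemma classObs_val (g : Γ → S.A → S.A) (c : Γ) (l : S.A) (x : Γ → S.A) :
    (S.classObs g c l).val x = decide (g c (x c) = l) := rfl

/-! ### Observables through classes -/

lemma thru_class (g : Γ → S.A → S.A) (c : Γ) (l : S.A) : (S.classObs g c l).Thru S g := by
  intro x y h
  simp only [classObs_val, h c (mem_singleton_self c)]

lemma Obs.Thru.finer {o : S.Obs} {g g' : Γ → S.A → S.A} (ho : o.Thru S g')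
    (hf : Finer g g' o.supp) : o.Thru S g :=
  fun x y h => ho x y fun c hc => hf c hc _ _ (h c hc)

lemma AdmissibleClass.coarsen {g g' : Γ → S.A → S.A} {U W : Finset Γ} {p : Γ → S.A}
    (h : S.AdmissibleClass g W p) (hU : U ⊆ W) (hf : Finer g g' U) :
    S.AdmissibleClass g' U p := by
  intro γ
  obtain ⟨q, hq, e⟩ := h γ
  exact ⟨q, hq, fun w hw hm => hf _ hm _ _ (e w hw (hU hm))⟩

/-! ### Commutation -/

lemma Com.symm {o o' : S.Obs} (h : Com o o') : Com o' o := Der.symm _ _ _ h

lemma Same.symm {o o' : S.Obs} (h : Same o o') : Same o' o := Der.symm _ _ _ h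

lemma Same.trans {o o' o'' : S.Obs} (h : Same o o') (h' : Same o' o'') : Same o o'' :=
  Der.trans _ _ _ h h'

lemma Same.com {o o₁ o' : S.Obs} (h : Same o o₁) (h' : Com o₁ o') : Com o o' :=
  Der.subst _ _ _ h h'

lemma Same.com_iff {o o₁ o' : S.Obs} (h : Same o o₁) : Com o o' ↔ Com o₁ o' :=
  ⟨fun h' => Same.com h.symm h', fun h' => Same.com h h'⟩

lemma Same.com_both {o o₁ p p₁ : S.Obs} (h : Same o o₁) (h' : Same p p₁) (hc : Com o₁ p₁) :
    Com o p :=
  h.com (h'.com hc.symm).symm

lemma Ctx.mono {g : Γ → S.A → S.A} {U W : Finset Γ} (h : Ctx g W) (hU : U ⊆ W) : Ctx g U :=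
  fun a ha b hb => h a (hU ha) b (hU hb)

lemma ctx_empty (g : Γ → S.A → S.A) : Ctx g ∅ := fun a ha => absurd ha (notMem_empty a)

lemma ctx_singleton (g : Γ → S.A → S.A) (c : Γ) : Ctx g {c} := by
  intro a ha b hb l l'
  rw [mem_singleton] at ha hb
  rw [ha, hb]
  exact Der.cell _ _ c (by simp) (by simp)

/-- The cells of one window form a context for all classes. -/
lemma ctx_window (g : Γ → S.A → S.A) (γ : Γ) {U : Finset Γ}
    (hU : ∀ a ∈ U, ∃ w ∈ S.win, a = γ * w) : Ctx g U := by
  intro a ha b hb l l'
  refine Der.window _ _ γ fun d hd => ?_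
  rcases hd with hd | hd <;> rw [classObs_supp, mem_singleton] at hd <;> subst hd
  exacts [hU _ ha, hU _ hb]

/-- An observable determined, on admissible patterns of a context, by observables commuting with
another one commutes with it. -/
lemma com_of_determined {ι : Type} [Fintype ι] {o o' : S.Obs} (ms : ι → S.Obs)
    {g h : Γ → S.A → S.A} {U : Finset Γ} (hU : Ctx g U) (ho : o.supp ⊆ U) (hto : o.Thru S g)
    (hms : ∀ i, (ms i).supp ⊆ U) (htms : ∀ i, (ms i).Thru S g) (ho' : Ctx h o'.supp)
    (hto' : o'.Thru S h)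
    (hdet : ∀ p q : Γ → S.A, S.AdmissibleClass g U p → S.AdmissibleClass g U q →
      (∀ i, (ms i).val p = (ms i).val q) → o.val p = o.val q)
    (hcom : ∀ i, Com (ms i) o') : Com o o' := by
  let e := Fintype.equivFin ι
  refine Der.derived o o' _ (fun j => ms (e.symm j))
    (fun v => decide (∃ q, S.AdmissibleClass g U q ∧ (∀ j, (ms (e.symm j)).val q = v j) ∧
      o.val q = true)) g h U ho (fun j => hms _) hto (fun j => htms _) hto' hU ho' (fun p hp => ?_)
    fun j => hcom _
  cases hv : o.val p
  · symm
    rw [decide_eq_false_iff_not]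
    rintro ⟨q, hq, he, hq'⟩
    have := hdet q p hq hp fun i => by simpa using he (e i)
    rw [hv, hq'] at this
    exact Bool.noConfusion this
  · symm
    rw [decide_eq_true_iff]
    exact ⟨p, hp, fun _ => rfl, hv⟩

/-- An observable commutes as soon as the classes of its cells do. -/
lemma com_of_classes {o o' : S.Obs} {g h : Γ → S.A → S.A} (ho : Ctx g o.supp)
    (hto : o.Thru S g) (ho' : Ctx h o'.supp) (hto' : o'.Thru S h)
    (hcom : ∀ a ∈ o.supp, ∀ l, Com (S.classObs g a l) o') : Com o o' := by
  refine com_of_determined (fun i : o.supp × S.A => S.classObs g i.1.1 i.2) ho subset_rfl hto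
    (fun i => by simp) (fun i => thru_class g _ _) ho' hto' (fun p q _ _ he => ?_)
    fun i => hcom _ i.1.2 _
  refine hto p q fun c hc => ?_
  have := he (⟨c, hc⟩, g c (p c))
  simp only [classObs_val, decide_true] at this
  exact (of_decide_eq_true this.symm).symm

/-- Observables in one context commute. -/
lemma Ctx.com {g : Γ → S.A → S.A} {U : Finset Γ} (hU : Ctx g U) {o o' : S.Obs}
    (ho : o.supp ⊆ U) (hto : o.Thru S g) (ho' : o'.supp ⊆ U) (hto' : o'.Thru S g) : Com o o' := by
  refine com_of_classes (hU.mono ho) hto (hU.mono ho') hto' fun a ha l => Com.symm ?_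
  refine com_of_classes (hU.mono ho') hto' (ctx_singleton g a) (thru_class g a l) fun b hb l' => ?_
  exact hU b (ho' hb) a (ho ha) l' l

/-- Coarser classes still commute. -/
lemma Ctx.coarsen {g g' : Γ → S.A → S.A} {U : Finset Γ} (hU : Ctx g U) (hf : Finer g g' U) :
    Ctx g' U := by
  intro a ha b hb l l'
  exact hU.com (by simpa using ha)
    ((thru_class g' a l).finer (hf.mono (by simpa using ha))) (by simpa using hb)
    ((thru_class g' b l').finer (hf.mono (by simpa using hb)))

/-- A context from commutation of the classes of pairs. -/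
lemma ctx_union {g : Γ → S.A → S.A} {U W : Finset Γ} (hU : Ctx g U) (hW : Ctx g W)
    (h : ∀ a ∈ U, ∀ b ∈ W, ∀ l l', Com (S.classObs g a l) (S.classObs g b l')) :
    Ctx g (U ∪ W) := by
  intro a ha b hb l l'
  rcases mem_union.1 ha with ha | ha <;> rcases mem_union.1 hb with hb | hb
  exacts [hU a ha b hb l l', h a ha b hb l l', (h b hb a ha l' l).symm, hW a ha b hb l l']

/-- Linked observables separate what is below one from what is beside the other. -/
lemma com_exclusive {o o' d d' : S.Obs} {g h : Γ → S.A → S.A} {U W : Finset Γ} (hU : Ctx g U)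
    (hW : Ctx h W) (ho : o.supp ⊆ U) (hto : o.Thru S g) (hd : d.supp ⊆ U) (htd : d.Thru S g)
    (ho' : o'.supp ⊆ W) (hto' : o'.Thru S h) (hd' : d'.supp ⊆ W) (htd' : d'.Thru S h)
    (hs : Same d d')
    (h1 : ∀ p, S.AdmissibleClass g U p → o.val p = true → d.val p = true)
    (h2 : ∀ p, S.AdmissibleClass h W p → o'.val p = true → d'.val p = false) : Com o o' :=
  Der.exclusive o o' d d' g h U W ho hd ho' hd' hto htd hto' htd' hU hW hs h1 h2

/-! ### Equal observables -/

/-- Observables equal on the admissible patterns of a context are equal. -/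
lemma same_of_agree {o o' : S.Obs} {g : Γ → S.A → S.A} {U : Finset Γ} (hU : Ctx g U)
    (ho : o.supp ⊆ U) (hto : o.Thru S g) (ho' : o'.supp ⊆ U) (hto' : o'.Thru S g)
    (h : ∀ p, S.AdmissibleClass g U p → o.val p = o'.val p) : Same o o' :=
  Der.agree o o' g U ho ho' hto hto' hU h

lemma same_refl {o : S.Obs} {g : Γ → S.A → S.A} (ho : Ctx g o.supp) (hto : o.Thru S g) :
    Same o o :=
  same_of_agree ho subset_rfl hto subset_rfl hto fun _ _ => rfl

/-- The same function of equal families gives equal observables. -/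
lemma same_of_fun {ι : Type} [Fintype ι] {o o' : S.Obs} (ms ms' : ι → S.Obs)
    (F : (ι → Bool) → Bool) {g h : Γ → S.A → S.A} {U W : Finset Γ} (hU : Ctx g U) (hW : Ctx h W)
    (ho : o.supp ⊆ U) (hto : o.Thru S g) (ho' : o'.supp ⊆ W) (hto' : o'.Thru S h)
    (h1 : ∀ i, (ms i).supp ⊆ U) (ht1 : ∀ i, (ms i).Thru S g)
    (h2 : ∀ i, (ms' i).supp ⊆ W) (ht2 : ∀ i, (ms' i).Thru S h)
    (hoU : ∀ p, S.AdmissibleClass g U p → o.val p = F fun i => (ms i).val p)
    (hoW : ∀ p, S.AdmissibleClass h W p → o'.val p = F fun i => (ms' i).val p)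
    (hs : ∀ i, Same (ms i) (ms' i)) : Same o o' := by
  let e := Fintype.equivFin ι
  refine Der.congr o o' _ (fun j => ms (e.symm j)) (fun j => ms' (e.symm j))
    (fun v => F fun i => v (e i)) g h U W ho (fun j => h1 _) ho' (fun j => h2 _) hto
    (fun j => ht1 _) hto' (fun j => ht2 _) hU hW (fun p hp => ?_) (fun p hp => ?_)
    fun j => hs _
  · simp only [hoU p hp, Equiv.symm_apply_apply]
  · simp only [hoW p hp, Equiv.symm_apply_apply]

/-- The empty event. -/
def bot (S : SFT Γ) : S.Obs where
  supp := ∅
  val _ := false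
  dep _ _ _ := rfl

@[simp] lemma bot_supp : (bot S).supp = ∅ := rfl

@[simp] lemma bot_val (x : Γ → S.A) : (bot S).val x = false := rfl

lemma thru_bot (g : Γ → S.A → S.A) : (bot S).Thru S g := fun _ _ _ => rfl

/-- The intersection of two observables. -/
def Obs.and (o o' : S.Obs) : S.Obs where
  supp := o.supp ∪ o'.supp
  val x := o.val x && o'.val x
  dep x y h := by
    rw [o.dep x y fun u hu => h u (mem_union_left _ hu),
      o'.dep x y fun u hu => h u (mem_union_right _ hu)]

/-- The part of an observable outside another one. -/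
def Obs.diff (o o' : S.Obs) : S.Obs where
  supp := o.supp ∪ o'.supp
  val x := o.val x && !o'.val x
  dep x y h := by
    rw [o.dep x y fun u hu => h u (mem_union_left _ hu),
      o'.dep x y fun u hu => h u (mem_union_right _ hu)]

@[simp] lemma Obs.and_supp (o o' : S.Obs) : (Obs.and o o').supp = o.supp ∪ o'.supp := rfl

@[simp] lemma Obs.and_val (o o' : S.Obs) (x : Γ → S.A) :
    (Obs.and o o').val x = (o.val x && o'.val x) := rfl

@[simp] lemma Obs.diff_supp (o o' : S.Obs) : (Obs.diff o o').supp = o.supp ∪ o'.supp := rfl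

@[simp] lemma Obs.diff_val (o o' : S.Obs) (x : Γ → S.A) :
    (Obs.diff o o').val x = (o.val x && !o'.val x) := rfl

lemma Obs.Thru.and {o o' : S.Obs} {g : Γ → S.A → S.A} (h : o.Thru S g) (h' : o'.Thru S g) :
    (Obs.and o o').Thru S g := by
  intro x y e
  simp only [Obs.and_val, h x y fun c hc => e c (mem_union_left _ hc),
    h' x y fun c hc => e c (mem_union_right _ hc)]

lemma Obs.Thru.diff {o o' : S.Obs} {g : Γ → S.A → S.A} (h : o.Thru S g) (h' : o'.Thru S g) :
    (Obs.diff o o').Thru S g := by
  intro x y e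
  simp only [Obs.diff_val, h x y fun c hc => e c (mem_union_left _ hc),
    h' x y fun c hc => e c (mem_union_right _ hc)]

/-! ### Null observables -/

/-- An observable equal to the empty event. -/
def Null (o : S.Obs) : Prop := Same o (bot S)

/-- An observable false on admissible patterns is null. -/
lemma null_of_false {o : S.Obs} {g : Γ → S.A → S.A} {U : Finset Γ} (hU : Ctx g U)
    (ho : o.supp ⊆ U) (hto : o.Thru S g)
    (h : ∀ p, S.AdmissibleClass g U p → o.val p = false) : Null o :=
  same_of_agree hU ho hto (by simp) (thru_bot g) fun p hp => by simp [h p hp]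

lemma Null.of_same {o o' : S.Obs} (h : Same o o') (h' : Null o') : Null o := Same.trans h h'

/-- An observable below finitely many null ones is null. -/
lemma null_of_le {ι : Type} [Fintype ι] {o : S.Obs} (ms : ι → S.Obs) {g : Γ → S.A → S.A}
    {U : Finset Γ} (hU : Ctx g U) (ho : o.supp ⊆ U) (hto : o.Thru S g)
    (hms : ∀ i, (ms i).supp ⊆ U) (htms : ∀ i, (ms i).Thru S g) (hn : ∀ i, Null (ms i))
    (h : ∀ p, S.AdmissibleClass g U p → o.val p = true → ∃ i, (ms i).val p = true) :
    Null o := by
  refine same_of_fun (ι := Option ι) (fun i => i.elim o ms)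
    (fun i => i.elim o fun _ => bot S)
    (fun v => v none && decide (∃ i, v (some i) = true)) hU hU ho hto (by simp) (thru_bot g)
    (fun i => by cases i; exacts [ho, hms _]) (fun i => by cases i; exacts [hto, htms _])
    (fun i => by cases i; exacts [ho, by simp]) (fun i => by cases i; exacts [hto, thru_bot g])
    (fun p hp => ?_) (fun p _ => ?_)
    (fun i => by cases i; exacts [same_refl (hU.mono ho) hto, hn _])
  · simp only [Option.elim_none, Option.elim_some]
    cases hv : o.val p
    · simp
    · simp [h p hp hv]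
  · simp

/-- A null event may be removed. -/
lemma Null.same_diff {o N : S.Obs} (hN : Null N) {g : Γ → S.A → S.A} {U : Finset Γ}
    (hU : Ctx g U) (ho : o.supp ⊆ U) (hto : o.Thru S g) (hNs : N.supp ⊆ U) (htN : N.Thru S g) :
    Same (Obs.diff o N) o :=
  same_of_fun (ι := Bool) (fun i => if i then o else N) (fun i => if i then o else bot S)
    (fun v => v true && !v false) hU hU (by simpa [union_subset_iff] using ⟨ho, hNs⟩)
    (hto.diff htN) ho hto (fun i => by cases i <;> simpa)
    (fun i => by cases i <;> simpa) (fun i => by cases i <;> simp [ho])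
    (fun i => by cases i <;> simp [hto, thru_bot]) (fun p _ => by simp) (fun p _ => by simp)
    (fun i => by cases i; exacts [hN, same_refl (hU.mono ho) hto])

/-- Observables equal outside a null event are equal. -/
lemma Null.same_of_eq {o o' N : S.Obs} (hN : Null N) {g : Γ → S.A → S.A} {U : Finset Γ}
    (hU : Ctx g U) (ho : o.supp ⊆ U) (hto : o.Thru S g) (ho' : o'.supp ⊆ U)
    (hto' : o'.Thru S g) (hNs : N.supp ⊆ U) (htN : N.Thru S g)
    (h : ∀ p, S.AdmissibleClass g U p → N.val p = false → o.val p = o'.val p) : Same o o' := by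
  refine (hN.same_diff hU ho hto hNs htN).symm.trans
    (Same.trans ?_ (hN.same_diff hU ho' hto' hNs htN))
  refine same_of_agree hU (by simpa [union_subset_iff] using ⟨ho, hNs⟩) (hto.diff htN)
    (by simpa [union_subset_iff] using ⟨ho', hNs⟩) (hto'.diff htN) fun p hp => ?_
  cases hv : N.val p
  · simp [hv, h p hp hv]
  · simp [hv]

lemma Null.com {N o : S.Obs} (hN : Null N) {h : Γ → S.A → S.A} (ho : Ctx h o.supp)
    (hto : o.Thru S h) : Com N o :=
  Same.com hN (com_of_determined (ι := Empty) Empty.elim (ctx_empty h) (by simp) (thru_bot h)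
    (fun i => i.elim) (fun i => i.elim) ho hto (fun _ _ _ _ _ => rfl) fun i => i.elim)

/-- Determined outside a null event by commuting observables. -/
lemma Null.com_of_determined {ι : Type} [Fintype ι] {o o' N : S.Obs} (hN : Null N)
    (ms : ι → S.Obs) {g h : Γ → S.A → S.A} {U : Finset Γ} (hU : Ctx g U) (ho : o.supp ⊆ U)
    (hto : o.Thru S g) (hNs : N.supp ⊆ U) (htN : N.Thru S g) (hms : ∀ i, (ms i).supp ⊆ U)
    (htms : ∀ i, (ms i).Thru S g) (ho' : Ctx h o'.supp) (hto' : o'.Thru S h)
    (hdet : ∀ p q, S.AdmissibleClass g U p → S.AdmissibleClass g U q → N.val p = false →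
      N.val q = false → (∀ i, (ms i).val p = (ms i).val q) → o.val p = o.val q)
    (hcom : ∀ i, Com (ms i) o') : Com o o' := by
  refine Same.com (hN.same_diff hU ho hto hNs htN).symm ?_
  refine SFT.com_of_determined (ι := Option ι) (fun i => i.elim N ms) hU
    (by simpa [union_subset_iff] using ⟨ho, hNs⟩) (hto.diff htN)
    (fun i => by cases i; exacts [hNs, hms _]) (fun i => by cases i; exacts [htN, htms _]) ho' hto'
    (fun p q hp hq he => ?_) (fun i => by cases i; exacts [hN.com ho' hto', hcom _])
  have h0 : N.val p = N.val q := he none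
  cases hv : N.val p
  · simp [hv, ← h0, hdet p q hp hq hv (h0 ▸ hv) fun i => he (some i)]
  · simp [hv, ← h0]

/-! ### Classes given by a component of each cell -/

/-- A representative of each value of `f c`. -/
noncomputable def coarse {β : Γ → Type} (f : ∀ c, S.A → β c) : Γ → S.A → S.A :=
  fun c l => @Function.invFun _ _ ⟨l⟩ (f c) (f c l)

lemma coarse_eq_iff {β : Γ → Type} (f : ∀ c, S.A → β c) (c : Γ) (l l' : S.A) :
    coarse f c l = coarse f c l' ↔ f c l = f c l' := by
  have hl := @Function.invFun_eq _ _ ⟨l⟩ (f c) (f c l) ⟨l, rfl⟩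
  have hl' := @Function.invFun_eq _ _ ⟨l'⟩ (f c) (f c l') ⟨l', rfl⟩
  refine ⟨fun h => ?_, fun h => ?_⟩
  · unfold coarse at h
    rw [← hl, ← hl', h]
  · unfold coarse
    rw [h]

/-- The observable that a component of the letter at `c` has the value `b`. -/
noncomputable def compObs {β : Type} (c : Γ) (f : S.A → β) (b : β) : S.Obs where
  supp := {c}
  val x := decide (f (x c) = b)
  dep x y h := by rw [h c (mem_singleton_self c)]

@[simp] lemma compObs_supp {β : Type} (c : Γ) (f : S.A → β) (b : β) :
    (compObs c f b).supp = {c} := rfl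

@[simp] lemma compObs_val {β : Type} (c : Γ) (f : S.A → β) (b : β) (x : Γ → S.A) :
    (compObs c f b).val x = decide (f (x c) = b) := rfl

lemma thru_comp {β : Type} {g : Γ → S.A → S.A} {c : Γ} {f : S.A → β} (b : β)
    (h : ∀ l l', g c l = g c l' → f l = f l') : (compObs c f b).Thru S g := by
  intro x y e
  simp only [compObs_val, h _ _ (e c (mem_singleton_self c))]

/-- A value of a component is a function of the classes. -/
lemma com_comp {β : Type} {g h : Γ → S.A → S.A} {c : Γ} {f : S.A → β} (b : β) {o' : S.Obs}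
    (hf : ∀ l l', g c l = g c l' → f l = f l') (ho' : Ctx h o'.supp) (hto' : o'.Thru S h)
    (hcom : ∀ l, Com (S.classObs g c l) o') : Com (compObs c f b) o' :=
  com_of_classes (ctx_singleton g c) (thru_comp b hf) ho' hto' fun a ha l => by
    rw [compObs_supp, mem_singleton] at ha
    exact ha ▸ hcom l

/-- All cells commute once all pairs of cells do. -/
lemma rigid_of_cells (h : ∀ a b : Γ, Ctx (S := S) (fun _ l => l) {a, b}) : S.Rigid := by
  intro a b l l'
  exact h a b a (by simp) b (by simp) l l'

end

end Vale.Agent.P193.BH.SFT
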