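import Vale.Agent.P193.BH.Defs

/-!
P193 in full, the interface between W5 and W6: a group over the full group in which the
three-cycles of pieces are lifted so that splitting a piece and conjugating by a cycle that is
affine on the pieces hold.
-/

namespace Vale.Agent.P193.BH

namespace SFT

variable {Γ : Type} [Group Γ] {S : SFT Γ}

lemma piece_mono {U V : Set S.X} (h : U ⊆ V) (γ : Γ) (a : List Bool) :
    S.piece U γ a ⊆ S.piece V γ a := by
  rintro p ⟨x, hx, w, rfl⟩
  exact ⟨x, h hx, w, rfl⟩

lemma cat_append (a b : List Bool) (w : ℕ → Bool) : cat (a ++ b) w = cat a (cat b w) := by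
  funext i
  simp only [cat, List.length_append]
  by_cases h1 : i < a.length
  · simp [h1, show i < a.length + b.length by omega]
  · by_cases h2 : i - a.length < b.length
    · simp [h1, h2, show i < a.length + b.length by omega, List.getElem_append_right (not_lt.1 h1)]
    · simp [h1, h2, show ¬ i < a.length + b.length by omega, Nat.sub_sub]

lemma piece_append_subset (U : Set S.X) (γ : Γ) (a b : List Bool) :
    S.piece U γ (a ++ b) ⊆ S.piece U γ a := by
  rintro p ⟨x, hx, w, rfl⟩
  exact ⟨x, hx, cat b w, by rw [cat_append]⟩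

namespace Cyc

/-- The part of a cycle over a clopen set. -/
def restrict (c : S.Cyc) {V : Set S.X} (hV : IsClopen V) : S.Cyc where
  base := c.base ∩ V
  clopen := c.clopen.inter hV
  shift := c.shift
  pre := c.pre
  disjoint i j h := Set.disjoint_of_subset (piece_mono Set.inter_subset_left _ _)
    (piece_mono Set.inter_subset_left _ _) (c.disjoint i j h)

/-- The half of a cycle in which all prefixes are followed by `b`. -/
def extend (c : S.Cyc) (b : Bool) : S.Cyc where
  base := c.base
  clopen := c.clopen
  shift := c.shift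
  pre i := c.pre i ++ [b]
  disjoint i j h := Set.disjoint_of_subset (piece_append_subset _ _ _ _)
    (piece_append_subset _ _ _ _) (c.disjoint i j h)

/-- `g` carries each piece of `d` onto the corresponding piece of `d'` by one translation and one
replacement of a prefix. -/
def MapsTo (g : Equiv.Perm S.Pt) (d d' : S.Cyc) : Prop :=
  d'.base = d.base ∧ ∀ i, ∀ x ∈ d.base, ∀ w,
    g (S.act (d.shift i) x, cat (d.pre i) w) = (S.act (d'.shift i) x, cat (d'.pre i) w)

/-- A cycle has only one permutation. -/
lemma IsPerm.unique {c : S.Cyc} {g g' : Equiv.Perm S.Pt} (h : c.IsPerm S g)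
    (h' : c.IsPerm S g') : g = g' := by
  refine Equiv.ext fun p => ?_
  by_cases hp : ∀ i, p ∉ S.piece c.base (c.shift i) (c.pre i)
  · rw [h.2 p hp, h'.2 p hp]
  · push Not at hp
    obtain ⟨i, x, hx, w, rfl⟩ := hp
    rw [h.1 i x hx w, h'.1 i x hx w]

end Cyc

/-- A group over the permutations of the points with lifts of all three-cycles of pieces. -/
structure Lift (S : SFT Γ) where
  E : Type
  [grp : Group E]
  proj : E →* Equiv.Perm S.Pt
  t : S.Cyc → E
  proj_t : ∀ c : S.Cyc, c.IsPerm S (proj (t c))
  /-- additivity in the base -/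
  split_base : ∀ (c : S.Cyc) (V : Set S.X) (hV : IsClopen V),
    t c = t (c.restrict hV) * t (c.restrict hV.compl)
  /-- additivity in the prefixes -/
  split_pre : ∀ c : S.Cyc, t c = t (c.extend false) * t (c.extend true)
  /-- conjugation by a cycle that is affine on the pieces -/
  conj : ∀ c d d' : S.Cyc, Cyc.MapsTo (proj (t c)) d d' → t c * t d * (t c)⁻¹ = t d'
  generated : Subgroup.closure (Set.range t) = ⊤

attribute [instance] Lift.grp

lemma Lift.range_proj (Λ : Lift S) : Λ.proj.range = S.fullGroup := by
  rw [MonoidHom.range_eq_map, ← Λ.generated, MonoidHom.map_closure, fullGroup]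
  congr 1
  ext g
  constructor
  · rintro ⟨_, ⟨c, rfl⟩, rfl⟩
    exact ⟨c, Λ.proj_t c⟩
  · rintro ⟨c, hc⟩
    exact ⟨Λ.t c, ⟨c, rfl⟩, (Λ.proj_t c).unique hc⟩

end SFT

/-- W5: rigidity gives a finitely presented lift. -/
def LiftStatement : Prop :=
  ∀ (Γ : Type) [Group Γ], Group.IsFinitelyPresented Γ → ∀ S : SFT Γ, S.MinimalFree → S.Rigid →
    ∃ Λ : SFT.Lift S, Group.IsFinitelyPresented Λ.E

/-- W6: every lift is faithful. -/
def FaithfulStatement : Prop :=
  ∀ (Γ : Type) [Group Γ] (S : SFT Γ), S.MinimalFree → ∀ Λ : SFT.Lift S, Function.Injective Λ.proj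

/-- A finitely presented faithful lift presents the full group. -/
theorem presentation_of (h5 : LiftStatement) (h6 : FaithfulStatement) :
    PresentationStatement := by
  intro Γ _ hΓ S hmf hrig
  obtain ⟨Λ, hΛ⟩ := h5 Γ hΓ S hmf hrig
  have e : Λ.E ≃* S.fullGroup :=
    (MonoidHom.ofInjective (h6 Γ S hmf Λ)).trans (MulEquiv.subgroupCongr Λ.range_proj)
  exact Group.IsFinitelyPresented.equiv (h := hΛ) e

end Vale.Agent.P193.BH
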