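import Vale.Agent.P193.BH.Lift

/-!
P193 in full: elementary lemmas on prefixes, pieces and cycles of pieces.
-/

namespace Vale.Agent.P193.BH.SFT

variable {Γ : Type} [Group Γ] {S : SFT Γ}

/-! ### Prefixes -/

/-- The first `n` letters. -/
def tk (n : ℕ) (z : ℕ → Bool) : List Bool := List.ofFn fun i : Fin n => z i

/-- The sequence without its first `n` letters. -/
def dr (n : ℕ) (z : ℕ → Bool) : ℕ → Bool := fun i => z (n + i)

@[simp] lemma length_tk (n : ℕ) (z : ℕ → Bool) : (tk n z).length = n := by simp [tk]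

lemma cat_of_lt {a : List Bool} (w : ℕ → Bool) {i : ℕ} (h : i < a.length) : cat a w i = a[i] :=
  dif_pos h

lemma cat_of_le {a : List Bool} (w : ℕ → Bool) {i : ℕ} (h : a.length ≤ i) :
    cat a w i = w (i - a.length) :=
  dif_neg (not_lt.2 h)

@[simp] lemma cat_nil (w : ℕ → Bool) : cat [] w = w := by
  funext i
  simp [cat]

@[simp] lemma cat_tk_dr (n : ℕ) (z : ℕ → Bool) : cat (tk n z) (dr n z) = z := by
  funext i
  by_cases h : i < n
  · rw [cat_of_lt _ (by simpa using h)]
    simp [tk]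
  · rw [cat_of_le _ (by simpa using not_lt.1 h)]
    simp [dr, Nat.add_sub_cancel' (not_lt.1 h)]

lemma tk_cat {a : List Bool} {n : ℕ} (h : a.length = n) (w : ℕ → Bool) : tk n (cat a w) = a := by
  subst h
  refine List.ext_getElem (by simp) fun i h1 h2 => ?_
  simp [tk, cat_of_lt w h2]

lemma dr_cat {a : List Bool} {n : ℕ} (h : a.length = n) (w : ℕ → Bool) : dr n (cat a w) = w := by
  subst h
  funext i
  simp [dr, cat_of_le]

lemma cat_inj {a b : List Bool} (h : a.length = b.length) {w w' : ℕ → Bool}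
    (e : cat a w = cat b w') : a = b ∧ w = w' := by
  constructor
  · rw [← tk_cat h w, e, tk_cat rfl]
  · rw [← dr_cat h w, e, dr_cat rfl]

lemma tk_congr {n : ℕ} {z z' : ℕ → Bool} (h : ∀ i < n, z i = z' i) : tk n z = tk n z' :=
  congrArg List.ofFn (funext fun i => h i i.2)

lemma apply_of_tk_eq {n : ℕ} {z z' : ℕ → Bool} (h : tk n z = tk n z') {i : ℕ} (hi : i < n) :
    z i = z' i :=
  congrFun (List.ofFn_injective h) ⟨i, hi⟩

/-- Prefixes given to the same sequence are comparable. -/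
lemma prefix_of_cat_eq {a b : List Bool} (h : a.length ≤ b.length) {w w' : ℕ → Bool}
    (e : cat a w = cat b w') : a <+: b := by
  have h1 : a = b.take a.length := by
    conv_lhs => rw [← tk_cat (a := a) rfl w, e]
    refine List.ext_getElem (by simp [h]) fun i h1 h2 => ?_
    have hb : i < b.length := by
      rw [length_tk] at h1
      omega
    simp [tk, cat_of_lt w' hb]
  exact h1 ▸ List.take_prefix _ _

lemma isClopen_tk (n : ℕ) (a : List Bool) : IsClopen {z : ℕ → Bool | tk n z = a} := by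
  have hc : Continuous fun z : ℕ → Bool => (fun i : Fin n => z i) :=
    continuous_pi fun i => continuous_apply _
  exact (isClopen_discrete {v : Fin n → Bool | List.ofFn v = a}).preimage hc

/-! ### Translations -/

lemma act_symm (γ : Γ) : (S.act γ).symm = S.act γ⁻¹ :=
  Equiv.ext fun x => (S.act γ).symm_apply_eq.2 (by rw [S.act_act, mul_inv_cancel, S.act_one])

lemma image_act (γ : Γ) (U : Set S.X) : S.act γ '' U = S.act γ⁻¹ ⁻¹' U := by
  rw [Equiv.image_eq_preimage_symm, act_symm]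

lemma isClopen_image_act (γ : Γ) {U : Set S.X} (h : IsClopen U) : IsClopen (S.act γ '' U) := by
  rw [image_act]
  exact h.preimage (S.continuous_act _)

/-! ### Pieces -/

lemma mem_piece {U : Set S.X} {γ : Γ} {a : List Bool} {p : S.Pt} :
    p ∈ S.piece U γ a ↔ p.1 ∈ S.act γ '' U ∧ tk a.length p.2 = a := by
  constructor
  · rintro ⟨x, hx, w, rfl⟩
    exact ⟨⟨x, hx, rfl⟩, tk_cat rfl w⟩
  · rintro ⟨⟨x, hx, e⟩, h⟩
    exact ⟨x, hx, dr a.length p.2, Prod.ext e.symm (by
      show p.2 = cat a (dr a.length p.2)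
      exact (cat_tk_dr a.length p.2).symm.trans (by rw [h]))⟩

lemma mk_mem_piece {U : Set S.X} (γ : Γ) (a : List Bool) {x : S.X} (hx : x ∈ U) (w : ℕ → Bool) :
    (S.act γ x, cat a w) ∈ S.piece U γ a :=
  ⟨x, hx, w, rfl⟩

lemma disjoint_piece_of_length {U U' : Set S.X} {γ γ' : Γ} {a a' : List Bool}
    (h : a.length = a'.length) (hne : a ≠ a') : Disjoint (S.piece U γ a) (S.piece U' γ' a') :=
  Set.disjoint_left.2 fun _ hp hp' =>
    hne ((mem_piece.1 hp).2.symm.trans (h ▸ (mem_piece.1 hp').2))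

lemma isClopen_piece {U : Set S.X} (h : IsClopen U) (γ : Γ) (a : List Bool) :
    IsClopen (S.piece U γ a) := by
  have e : S.piece U γ a = (Prod.fst ⁻¹' (S.act γ '' U)) ∩
      (Prod.snd ⁻¹' {z : ℕ → Bool | tk a.length z = a}) :=
    Set.ext fun p => mem_piece
  rw [e]
  exact ((isClopen_image_act γ h).preimage continuous_fst).inter
    ((isClopen_tk _ a).preimage continuous_snd)

/-! ### Cycles -/

namespace Cyc

lemma ext' {c d : S.Cyc} (h1 : c.base = d.base) (h2 : c.shift = d.shift) (h3 : c.pre = d.pre) :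
    c = d := by
  obtain ⟨⟩ := c
  obtain ⟨⟩ := d
  cases h1
  cases h2
  cases h3
  rfl

/-- The inverse cycle. -/
def rev (c : S.Cyc) : S.Cyc where
  base := c.base
  clopen := c.clopen
  shift i := c.shift (-i)
  pre i := c.pre (-i)
  disjoint i j h := c.disjoint (-i) (-j) fun e => h (neg_inj.1 e)

lemma IsPerm.apply_piece {c : S.Cyc} {g : Equiv.Perm S.Pt} (h : c.IsPerm S g) (i : Fin 3)
    {x : S.X} (hx : x ∈ c.base) (w : ℕ → Bool) :
    g (S.act (c.shift i) x, cat (c.pre i) w) =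
      (S.act (c.shift (i + 1)) x, cat (c.pre (i + 1)) w) :=
  h.1 i x hx w

lemma IsPerm.inv {c : S.Cyc} {g : Equiv.Perm S.Pt} (h : c.IsPerm S g) :
    c.rev.IsPerm S g⁻¹ := by
  refine ⟨fun i x hx w => ?_, fun p hp => ?_⟩
  · have e := h.apply_piece (-(i + 1)) hx w
    rw [show -(i + 1) + 1 = -i by rw [neg_add, add_assoc, neg_add_cancel, add_zero]] at e
    simp only [rev]
    rw [← e]
    exact g.symm_apply_apply _
  · have := h.2 p fun i hi => hp (-i) (by simpa [rev] using hi)
    show g.symm p = p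
    rw [Equiv.symm_apply_eq, this]

lemma IsPerm.of_empty {c : S.Cyc} {g : Equiv.Perm S.Pt} (h : c.IsPerm S g) (he : c.base = ∅) :
    g = 1 :=
  Equiv.ext fun p => h.2 p fun i hi => by
    obtain ⟨x, hx, -⟩ := hi
    rw [he] at hx
    exact hx

lemma restrict_base (c : S.Cyc) {V : Set S.X} (hV : IsClopen V) :
    (c.restrict hV).base = c.base ∩ V :=
  rfl

lemma extend_pre (c : S.Cyc) (b : Bool) (i : Fin 3) : (c.extend b).pre i = c.pre i ++ [b] :=
  rfl

namespace MapsTo

variable {g g' : Equiv.Perm S.Pt} {d d' d'' : S.Cyc}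

lemma restrict (h : MapsTo g d d') {V : Set S.X} (hV : IsClopen V) :
    MapsTo g (d.restrict hV) (d'.restrict hV) :=
  ⟨show d'.base ∩ V = d.base ∩ V by rw [h.1], fun i x hx w => h.2 i x hx.1 w⟩

lemma extend (h : MapsTo g d d') (b : Bool) : MapsTo g (d.extend b) (d'.extend b) :=
  ⟨h.1, fun i x hx w => by
    simp only [extend_pre, cat_append]
    exact h.2 i x hx _⟩

lemma comp (h : MapsTo g d d') (h' : MapsTo g' d' d'') : MapsTo (g' * g) d d'' :=
  ⟨h'.1.trans h.1, fun i x hx w => by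
    show g' (g _) = _
    rw [h.2 i x hx w, h'.2 i x (h.1.symm ▸ hx) w]⟩

lemma symm (h : MapsTo g d d') : MapsTo g⁻¹ d' d :=
  ⟨h.1.symm, fun i x hx w => by
    rw [← h.2 i x (h.1 ▸ hx) w]
    exact g.symm_apply_apply _⟩

lemma refl (d : S.Cyc) : MapsTo (1 : Equiv.Perm S.Pt) d d := ⟨rfl, fun _ _ _ _ => rfl⟩

end MapsTo

/-- The image of a cycle under a permutation given on its pieces by formulas. -/
def image (d : S.Cyc) (g : Equiv.Perm S.Pt) (δ : Fin 3 → Γ) (b : Fin 3 → List Bool)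
    (h : ∀ i, ∀ x ∈ d.base, ∀ w,
      g (S.act (d.shift i) x, cat (d.pre i) w) = (S.act (δ i) x, cat (b i) w)) : S.Cyc where
  base := d.base
  clopen := d.clopen
  shift := δ
  pre := b
  disjoint i j hij := by
    refine Set.disjoint_left.2 ?_
    rintro p ⟨x, hx, w, rfl⟩ ⟨x', hx', w', e⟩
    rw [← h i x hx w, ← h j x' hx' w'] at e
    exact Set.disjoint_left.1 (d.disjoint i j hij) (mk_mem_piece _ _ hx w)
      ((g.injective e).symm ▸ mk_mem_piece _ _ hx' w')

lemma mapsTo_image (d : S.Cyc) (g : Equiv.Perm S.Pt) (δ : Fin 3 → Γ) (b : Fin 3 → List Bool)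
    (h : ∀ i, ∀ x ∈ d.base, ∀ w,
      g (S.act (d.shift i) x, cat (d.pre i) w) = (S.act (δ i) x, cat (b i) w)) :
    MapsTo g d (d.image g δ b h) :=
  ⟨rfl, h⟩

/-- The cycles that split, in bases and in prefixes, into cycles satisfying `P`. -/
inductive Fine (P : S.Cyc → Prop) : S.Cyc → Prop
  | of (d : S.Cyc) : P d → Fine P d
  | base (d : S.Cyc) (V : Set S.X) (hV : IsClopen V) :
      Fine P (d.restrict hV) → Fine P (d.restrict hV.compl) → Fine P d
  | pre (d : S.Cyc) : Fine P (d.extend false) → Fine P (d.extend true) → Fine P d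

lemma Fine.bind {P Q : S.Cyc → Prop} {d : S.Cyc} (h : Fine P d) (hPQ : ∀ e, P e → Fine Q e) :
    Fine Q d := by
  induction h with
  | of d hd => exact hPQ d hd
  | base d V hV _ _ i1 i2 => exact .base d V hV i1 i2
  | pre d _ _ i1 i2 => exact .pre d i1 i2

lemma Fine.mono {P Q : S.Cyc → Prop} {d : S.Cyc} (h : Fine P d) (hPQ : ∀ e, P e → Q e) :
    Fine Q d :=
  h.bind fun e he => .of e (hPQ e he)

/-- `g` is affine on every piece of `d`. -/
def Affine (g : Equiv.Perm S.Pt) (d : S.Cyc) : Prop := ∃ d', MapsTo g d d'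

end Cyc

end Vale.Agent.P193.BH.SFT
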